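import Mathlib

/-!
The potential lemma of the crossing argument for Artin reciprocity (block [D] of P022-CFT).
-/

namespace Vale.Agent.P022.H531

open Finset

theorem prod_zp {Q ι : Type*} [CommGroup Q] (a : Q) (s : Finset ι) (f : ι → ℤ) :
    ∏ i ∈ s, a ^ f i = a ^ ∑ i ∈ s, f i := by
  classical
  induction s using Finset.induction_on with
  | empty => simp
  | insert i s hi ih => rw [prod_insert hi, sum_insert hi, zpow_add, ih]

/-- `∏_w q(w)^(y w)` in the quotient by the stabiliser. -/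
theorem pot_shift {G X : Type*} [Group G] [MulAction G X] [Fintype X] {Q : Type*} [CommGroup Q]
    (π : G →* Q) (q : X → Q)
    (hq : ∀ (h : G) (w : X), q (h • w) = π h * q w) (y : X → ℤ) (h : G) :
    ∏ w, q w ^ y (h • w) = (π h ^ (∑ w, y w))⁻¹ * ∏ w, q w ^ y w := by
  have h1 : ∏ w, q w ^ y (h • w) = ∏ w, q (h⁻¹ • w) ^ y w := by
    refine Fintype.prod_equiv (MulAction.toPerm h) _ _ fun w => ?_
    simp [MulAction.toPerm_apply]
  rw [h1]
  have h2 : ∀ w, q (h⁻¹ • w) ^ y w = (π h ^ y w)⁻¹ * q w ^ y w := by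
    intro w
    rw [hq, map_inv, mul_zpow, inv_zpow]
  simp_rw [h2]
  rw [Finset.prod_mul_distrib, Finset.prod_inv_distrib, prod_zp]

/-- Sums of a function over the orbit of a cyclic subgroup, summed over everything. -/
theorem sum_orb {G X : Type*} [Group G] [MulAction G X] [Fintype X] (σ : G) (n : ℕ) (y : X → ℤ)
    (A : ℤ) (h1 : ∀ w, ∑ i ∈ range n, y (σ ^ i • w) = A) :
    (n : ℤ) * ∑ w, y w = (Fintype.card X : ℤ) * A := by
  have h2 : ∑ w : X, ∑ i ∈ range n, y (σ ^ i • w) = (Fintype.card X : ℤ) * A := by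
    simp_rw [h1]
    rw [Finset.sum_const, nsmul_eq_mul, Finset.card_univ]
  rw [Finset.sum_comm] at h2
  have h3 : ∀ i ∈ range n, ∑ w : X, y (σ ^ i • w) = ∑ w, y w := by
    intro i _
    exact Fintype.sum_equiv (MulAction.toPerm (σ ^ i)) _ _ fun w => rfl
  rw [Finset.sum_congr rfl h3, Finset.sum_const, nsmul_eq_mul, card_range] at h2
  exact h2

/-- **The potential lemma.** `G = ⟨σ⟩ × ⟨τ⟩` acts transitively on the places `X` over `v`, the
stabilisers being generated by `σ ^ a * τ ^ b`; if `N_σ y = A`, `N_τ z = B` and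
`τ y / y = σ z / z`, then `A a / n + B b / N` is an integer. -/
theorem potential {G X : Type*} [CommGroup G] [MulAction G X] [MulAction.IsPretransitive G X]
    [Finite X] (w₀ : X) (σ τ : G) (n N : ℕ)
    (hind : ∀ i j : ℤ, σ ^ i * τ ^ j = 1 → (n : ℤ) ∣ i ∧ (N : ℤ) ∣ j)
    (hcard : Nat.card G = n * N) (hG : Nat.card G ≠ 0) (a b : ℤ)
    (hD : ∀ g ∈ MulAction.stabilizer G w₀, g ∈ Subgroup.zpowers (σ ^ a * τ ^ b))
    (hD' : σ ^ a * τ ^ b ∈ MulAction.stabilizer G w₀)
    (y z : X → ℤ) (A B : ℤ)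
    (h1 : ∀ w, ∑ i ∈ range n, y (σ ^ i • w) = A)
    (h2 : ∀ w, ∑ j ∈ range N, z (τ ^ j • w) = B)
    (h3 : ∀ w, y (τ • w) - y w = z (σ • w) - z w) :
    (n * N : ℤ) ∣ a * N * A + b * n * B := by
  classical
  let _ : Fintype X := Fintype.ofFinite X
  have : Finite G := (Nat.card_ne_zero.mp hG).2
  set φ : G := σ ^ a * τ ^ b with hφ
  set D : Subgroup G := MulAction.stabilizer G w₀ with hDd
  have hDz : D = Subgroup.zpowers φ := by
    refine le_antisymm hD ?_
    rw [Subgroup.zpowers_le]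
    exact hD'
  -- the labels
  choose g hg using fun w : X => MulAction.exists_smul_eq G w₀ w
  let π : G →* G ⧸ D := QuotientGroup.mk' D
  let q : X → G ⧸ D := fun w => π (g w)
  have hq : ∀ (h : G) (w : X), q (h • w) = π h * q w := by
    intro h w
    change π (g (h • w)) = π h * π (g w)
    rw [← map_mul]
    change (QuotientGroup.mk (g (h • w)) : G ⧸ D) = QuotientGroup.mk (h * g w)
    rw [QuotientGroup.eq, hDd, MulAction.mem_stabilizer_iff, mul_smul, mul_smul, hg w,
      inv_smul_eq_iff, hg (h • w)]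
  have hy := pot_shift π q hq y τ
  have hz := pot_shift π q hq z σ
  have hne : ∏ w, q w ^ (y (τ • w) - y w) = ∏ w, q w ^ (z (σ • w) - z w) := by
    simp_rw [h3]
  simp_rw [zpow_sub] at hne
  rw [Finset.prod_mul_distrib, Finset.prod_mul_distrib, Finset.prod_inv_distrib,
    Finset.prod_inv_distrib, hy, hz, mul_inv_cancel_right, mul_inv_cancel_right,
    inv_inj, ← map_zpow, ← map_zpow] at hne
  set sy : ℤ := ∑ w, y w
  set sz : ℤ := ∑ w, z w
  have hmem : (σ ^ sz)⁻¹ * τ ^ sy ∈ D := by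
    have := hne.symm
    change (QuotientGroup.mk (σ ^ sz) : G ⧸ D) = QuotientGroup.mk (τ ^ sy) at this
    exact QuotientGroup.eq.mp this
  rw [hDz, Subgroup.mem_zpowers_iff] at hmem
  obtain ⟨k, hk⟩ := hmem
  have hk1 : σ ^ (a * k + sz) * τ ^ (b * k - sy) = 1 := by
    have : φ ^ k = σ ^ (a * k) * τ ^ (b * k) := by
      rw [hφ, mul_zpow, ← zpow_mul, ← zpow_mul]
    rw [this] at hk
    rw [zpow_add, zpow_sub]
    calc σ ^ (a * k) * σ ^ sz * (τ ^ (b * k) * (τ ^ sy)⁻¹)
        = (σ ^ (a * k) * τ ^ (b * k)) * (σ ^ sz * (τ ^ sy)⁻¹) := by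
          rw [mul_mul_mul_comm]
      _ = ((σ ^ sz)⁻¹ * τ ^ sy) * (σ ^ sz * (τ ^ sy)⁻¹) := by rw [hk]
      _ = 1 := by
          rw [mul_mul_mul_comm, inv_mul_cancel, mul_inv_cancel, one_mul]
  obtain ⟨t, ht⟩ := (hind _ _ hk1).1
  obtain ⟨s, hs⟩ := (hind _ _ hk1).2
  -- the order of the decomposition group
  set f : ℕ := orderOf φ
  have hf1 : σ ^ (a * f) * τ ^ (b * f) = 1 := by
    have : φ ^ (f : ℤ) = 1 := by rw [zpow_natCast]; exact pow_orderOf_eq_one φ
    rw [hφ, mul_zpow, ← zpow_mul, ← zpow_mul] at this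
    exact this
  obtain ⟨u, hu⟩ := (hind _ _ hf1).1
  obtain ⟨r, hr⟩ := (hind _ _ hf1).2
  have hXf : Fintype.card X * f = n * N := by
    have h4 : D.index = Nat.card X := MulAction.index_stabilizer_of_transitive G w₀
    have h5 := D.card_mul_index
    rw [h4, hDz, Nat.card_zpowers, hcard, Nat.card_eq_fintype_card] at h5
    rw [mul_comm]
    exact h5
  have hA := sum_orb σ n y A h1
  have hB := sum_orb τ N z B h2
  have hn0 : (n : ℤ) ≠ 0 := by
    rintro h; apply hG; rw [hcard]; simp [Int.natCast_eq_zero.mp h]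
  have hN0 : (N : ℤ) ≠ 0 := by
    rintro h; apply hG; rw [hcard]; simp [Int.natCast_eq_zero.mp h]
  have hXf' : (Fintype.card X : ℤ) * f = n * N := by exact_mod_cast hXf
  have hA' : (f : ℤ) * sy = N * A := by
    apply mul_left_cancel₀ hn0
    calc (n : ℤ) * (f * sy) = f * (n * sy) := by ring
      _ = f * (Fintype.card X * A) := by rw [hA]
      _ = (Fintype.card X * f) * A := by ring
      _ = n * (N * A) := by rw [hXf']; ring
  have hB' : (f : ℤ) * sz = n * B := by
    apply mul_left_cancel₀ hN0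
    calc (N : ℤ) * (f * sz) = f * (N * sz) := by ring
      _ = f * (Fintype.card X * B) := by rw [hB]
      _ = (Fintype.card X * f) * B := by ring
      _ = N * (n * B) := by rw [hXf']; ring
  refine ⟨t * r - s * u, ?_⟩
  have hsz : sz = n * t - a * k := by linarith
  have hsy : sy = b * k - N * s := by linarith
  calc a * N * A + b * n * B = a * (N * A) + b * (n * B) := by ring
    _ = a * (f * sy) + b * (f * sz) := by rw [hA', hB']
    _ = (b * f) * (n * t) - (a * f) * (N * s) := by rw [hsz, hsy]; ring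
    _ = n * N * (t * r - s * u) := by rw [hu, hr]; ring

end Vale.Agent.P022.H531
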